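import Vale.Agent.P207.N3.Top.CaseI
import Vale.Agent.P207.N3.H12.Fin
import Vale.Agent.P207.N3.H790.P4
import Vale.Agent.P207.N3.H310.FwdOut
import Vale.Agent.P207.N3.H143.Case2

/-!
# P207, line N3: the logic, complete
-/

open Set Filter Topology Metric MeasureTheory
open scoped ContDiff

noncomputable section

namespace Vale.Agent.P207.N3

variable {Γ X B : Type} [Group Γ] [MetricSpace X] [ProperSpace X] [MulAction Γ X]
  [IsIsometricSMul Γ X] [TopologicalSpace B] [CompactSpace B] [T2Space B] [MulAction Γ B]
  [ContinuousConstSMul Γ B] [MeasurableSpace B] [BorelSpace B] {L : Leaf Γ X B}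
  {V : Type} [NormedAddCommGroup V] [NormedSpace ℝ V] [FiniteDimensional ℝ V]

/-- the four inputs hold -/
theorem rem4_of (S : Suite L V) : Rem4 S where
  p4 := H790.p4_of_fwd L (H310.exists_fwd L)
  hdiv := H12.hdiv_of S
  r1 := H12.r1_of S
  case2 := H143.case2_of S

/-- **all outputs of the packages** -/
theorem outs_of (S : Suite L V) : Outs S.A S.T := (rem4_of S).outs

/-- **Case I occurs** -/
theorem caseI_of (S : Suite L V) : Nonempty (H662.CaseI L S.A) := (rem4_of S).caseI

end Vale.Agent.P207.N3
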