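import Vale.Agent.P207.N3.Top.Asm
import Vale.Agent.P207.N3.Top.Suite
import Vale.Agent.P207.N3.H728.SmFin
import Vale.Agent.P207.N3.H80.Start

/-!
# P207, line N3: the logic over the geometric input `Suite`
-/

open Set Filter Topology Metric MeasureTheory
open scoped ContDiff

noncomputable section

namespace Vale.Agent.P207.N3

variable {Γ X B : Type} [Group Γ] [MetricSpace X] [ProperSpace X] [MulAction Γ X]
  [IsIsometricSMul Γ X] [TopologicalSpace B] [CompactSpace B] [T2Space B] [MulAction Γ B]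
  [ContinuousConstSMul Γ B] [MeasurableSpace B] [BorelSpace B] {L : Leaf Γ X B}
  {V : Type} [NormedAddCommGroup V] [NormedSpace ℝ V] [FiniteDimensional ℝ V]

/-- the last four inputs -/
structure Rem4 (S : Suite L V) : Prop where
  /-- P4b (147, 790) -/
  p4 : H319.P4b L
  /-- P3, P10, LINK (12) -/
  hdiv : ∀ (o : Orb L) (n : Nor L o), (∃ μ₁ μ₂ a k, n.N = .tri μ₁ μ₂ a k) →
    Nonempty (DivIn S.T n)
  /-- P10, (R1) (12, 254, 578) -/
  r1 : ∀ (o : Orb L) (n : Nor L o), n.N.Split → ∃ (o' : Orb L) (n' : Nor L o')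
    (_ : n'.N.Split) (D : DivIn S.T n'), SmNear fun z => D.Tp z (bas 1) 1
  /-- P17, 4.6 (ii), (iii) (547, 143) -/
  case2 : ∀ k₀, Rough S.T k₀ → Types S.A S.T k₀ → (∀ p : Typed S.A S.T k₀, p.t.IsF) → ∀ c,
    H319.P4c L c → ∀ o₀ : Orb L, (∀ o : Orb L, o.lam = o₀.lam → ∀ (n : Nor L o)
      (W : H147.Fwd o n.x n.N.fn c) (k : Γ), k • o.pos ≠ o.neg →
      (W.Bm k (EuclideanSpace.single 0 1)) 0 ≠ 0) → False

theorem Rem4.rem {S : Suite L V} (R : Rem4 S) : Rem S.A S.T where
  p4 := R.p4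
  smooth_false := fun hS o n => H728.smooth_false S.A S.I S.X S.M S.H S.F hS o n
  start := fun k₀ hR o n hn k => by
    obtain ⟨o', n', hn', D, h⟩ := R.r1 o n hn
    exact H80.start S.A hR n' hn' D h k
  hdiv := R.hdiv
  case2 := R.case2

/-- all outputs of the packages -/
theorem Rem4.outs {S : Suite L V} (R : Rem4 S) : Outs S.A S.T := R.rem.outs

theorem Rem4.caseI {S : Suite L V} (R : Rem4 S) : Nonempty (H662.CaseI L S.A) := R.outs.caseI

end Vale.Agent.P207.N3
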